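import Crest.Agent.X212.Dr59.Tex
import Crest.Agent.X212.Dr59.Rod

/-!
# X212 / Deg17 (helper17): intersection forms of rod words with rational homology sphere ends

* `Wd w δ i j` : a word with vertices at `i + 1, …, j`;  `Fm k F` : the form with compact support and orders `k`;
* `Fm.ip1`, `Fm.ip2` (one and two vertices), `Fm.conn` (curvature of a toric line), `lat1`, `lat2`.
-/

set_option autoImplicit false
set_option linter.unusedSectionVars false

open Set Filter Topology Function Module MeasureTheory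
open scoped ContDiff Manifold Real
open Crest.Agent.R208 Crest.Agent.R208.FI
open Crest.Agent.R208.F hiding wd
open Crest.Agent.X212.Int54 hiding dt pr kap tp_pr pr_eq cAt_pr pm_pr kap_ne sigmaCompact
open Crest.Agent.X212.Line51 hiding tp Uni
open Crest.Agent.X212.Orx52 Crest.Agent.X212.Rod53 Crest.Agent.X212.Pj41 Crest.Agent.X212.Dr59

noncomputable section

namespace Crest.Agent.X212.Deg17

/-- constant outside `[i, j]` -/
def Cst {α : Type*} (k : ℤ → α) (i j : ℤ) : Prop := (∀ l, l ≤ i → k l = k i) ∧ ∀ l, j ≤ l → k l = k j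

/-- a word with vertices at the times `i + 1, …, j` -/
structure Wd (w : ℤ → Z2) (δ : Z2) (i j : ℤ) : Prop where
  lt : i < j
  cst : Cst w i j
  un : ∀ l, i < l → l ≤ j → Uni (w (l - 1)) (w l)
  ha : dot δ (w i) ≠ 0
  hb : dot δ (w j) ≠ 0

/-- three values -/
def s3 {α : Type*} (i : ℤ) (a b c : α) (l : ℤ) : α := if l ≤ i then a else if l = i + 1 then b else c

section s3

variable {α : Type*} (i : ℤ) (a b c : α)

@[simp] theorem s3_0 : s3 i a b c i = a := by simp [s3]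
@[simp] theorem s3_1 : s3 i a b c (i + 1) = b := by simp [s3]
@[simp] theorem s3_2 : s3 i a b c (i + 2) = c := by
  rw [s3, if_neg (by omega), if_neg (by omega)]

theorem cst_s3 : Cst (s3 i a b c) i (i + 2) :=
  ⟨fun l h => by rw [s3_0, s3, if_pos h], fun l h => by rw [s3_2, s3, if_neg (by omega), if_neg (by omega)]⟩

theorem cst_s2 : Cst (s3 i a b b) i (i + 1) :=
  ⟨fun l h => by rw [s3_0, s3, if_pos h], fun l h => by rw [s3_1, s3, if_neg (by omega), ite_self]⟩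

end s3

variable {w : ℤ → Z2} {δ : Z2} {i j : ℤ} {k k' : ℤ → ℤ}

theorem Wd.isWd (h : Wd w δ i j) : IsWd w := by
  have := h.lt
  refine ⟨fun l => ?_, fun l => ?_⟩
  · rcases le_or_gt l i with a | a
    · exact ⟨w (i + 1), by rw [h.cst.1 l a]; simpa using h.un (i + 1) (by omega) (by omega)⟩
    rcases le_or_gt l j with b | b
    · exact ⟨_, (h.un l a b).symm⟩
    · exact ⟨_, h.cst.2 l b.le ▸ (h.un j h.lt le_rfl).symm⟩
  · rcases le_or_gt l i with a | a
    · exact .inl (.inl ((h.cst.1 _ (by omega)).trans (h.cst.1 l a).symm))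
    rcases le_or_gt l j with b | b
    · exact .inr (h.un l a b)
    · exact .inl (.inl ((h.cst.2 _ (by omega)).trans (h.cst.2 l b.le).symm))

theorem wd1 {a b : Z2} (hu : Uni a b) (ha : dot δ a ≠ 0) (hb : dot δ b ≠ 0) (i : ℤ) :
    Wd (s3 i a b b) δ i (i + 1) :=
  ⟨by omega, cst_s2 i a b, fun l h1 h2 => by obtain rfl : l = i + 1 := by omega
                                             simpa using hu, by simpa, by simpa⟩

theorem wd2 {a b c : Z2} (hu : Uni a b) (hu' : Uni b c) (ha : dot δ a ≠ 0) (hc : dot δ c ≠ 0) (i : ℤ) :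
    Wd (s3 i a b c) δ i (i + 2) :=
  ⟨by omega, cst_s3 i a b c, fun l h1 h2 => by
    obtain rfl | rfl : l = i + 1 ∨ l = i + 2 := by omega
    · simpa using hu
    · rwa [show i + 2 - 1 = i + 1 by ring, s3_1, s3_2], by simpa, by simpa⟩

variable (w δ i j k) in
/-- the multiples of the angle form -/
def nc (l : ℤ) : ℝ := if l ≤ i then k i / dot δ (w i) else k j / dot δ (w j)

variable (w δ i j k) in
/-- the characters -/
def mc (l : ℤ) : ℝ × ℝ :=
  if i < l ∧ l ≤ j then rc2 (dual (w (l - 1)) (w l) (k (l - 1)) (k l)) else nc w δ i j k l • rc2 δ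

theorem dr_smul (s : ℝ) (x : ℝ × ℝ) (a : Z2) : dr (s • x) a = s * dr x a := by simp [dr]; ring

theorem mc_lo {l : ℤ} (h : l ≤ i) : mc w δ i j k l = ((k i : ℝ) / dot δ (w i)) • rc2 δ := by
  rw [mc, if_neg (by omega), nc, if_pos h]

theorem mc_hi {l : ℤ} (hij : i < j) (h : j < l) : mc w δ i j k l = ((k j : ℝ) / dot δ (w j)) • rc2 δ := by
  rw [mc, if_neg (by omega), nc, if_neg (by omega)]

theorem mc_mid {l : ℤ} (h : i < l) (h' : l ≤ j) :
    mc w δ i j k l = rc2 (dual (w (l - 1)) (w l) (k (l - 1)) (k l)) := if_pos ⟨h, h'⟩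

theorem Wd.dr0 (h : Wd w δ i j) (hk : Cst k i j) (l : ℤ) : dr (mc w δ i j k l) (w l) = k l := by
  rcases le_or_gt l i with a | a
  · rw [mc_lo a, dr_smul, dr_rc2, h.cst.1 l a, hk.1 l a, div_mul_cancel₀ _ (Int.cast_ne_zero.2 h.ha)]
  rcases le_or_gt l j with b | b
  · rw [mc_mid a b, dr_rc2, dual_right (h.un l a b)]
  · rw [mc_hi h.lt b, dr_smul, dr_rc2, h.cst.2 l b.le, hk.2 l b.le, div_mul_cancel₀ _ (Int.cast_ne_zero.2 h.hb)]

theorem Wd.dr1 (h : Wd w δ i j) (hk : Cst k i j) (l : ℤ) : dr (mc w δ i j k (l + 1)) (w l) = k l := by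
  rcases le_or_gt (l + 1) i with a | a
  · rw [mc_lo a, dr_smul, dr_rc2, h.cst.1 l (by omega), hk.1 l (by omega),
      div_mul_cancel₀ _ (Int.cast_ne_zero.2 h.ha)]
  rcases le_or_gt (l + 1) j with b | b
  · have := h.un _ a b
    rw [add_sub_cancel_right] at this
    rw [mc_mid a b, dr_rc2, add_sub_cancel_right, dual_left this]
  · rw [mc_hi h.lt b, dr_smul, dr_rc2, h.cst.2 l (by omega), hk.2 l (by omega),
      div_mul_cancel₀ _ (Int.cast_ne_zero.2 h.hb)]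

theorem det2_eq {a c : Z2} (hu : Uni a c) (x y : ℝ × ℝ) :
    det2 x y = dt a c * (dr x a * dr y c - dr x c * dr y a) := by
  have h : ((dt a c : ℤ) : ℝ) * dt a c = 1 := by exact_mod_cast hu.sq
  simp only [dt, det2, dr] at h ⊢
  push_cast at h ⊢
  linear_combination -(x.1 * y.2 - x.2 * y.1) * h

/-- the value of the class with orders `m`, `m'` on the generator (`Rw22.kp`) -/
def kp (δ a b : Z2) (m m' : ℤ) : ℤ := m * dot δ b - m' * dot δ a

theorem sum1 (h : Wd w δ i (i + 1)) (hk : Cst k i (i + 1)) (hk' : Cst k' i (i + 1)) :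
    ∑ l ∈ Finset.Icc i (i + 1), det2 (mc w δ i (i + 1) k l) (mc w δ i (i + 1) k' (l + 1) - mc w δ i (i + 1) k' l) =
      -((kp δ (w i) (w (i + 1)) (k i) (k (i + 1)) : ℝ) * kp δ (w i) (w (i + 1)) (k' i) (k' (i + 1)) /
        (dt (w i) (w (i + 1)) * dot δ (w i) * dot δ (w (i + 1)))) := by
  have hu : Uni (w i) (w (i + 1)) := by simpa using h.un (i + 1) (by omega) le_rfl
  have ha : (dot δ (w i) : ℝ) ≠ 0 := Int.cast_ne_zero.2 h.ha
  have hb : (dot δ (w (i + 1)) : ℝ) ≠ 0 := Int.cast_ne_zero.2 h.hb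
  rw [show Finset.Icc i (i + 1) = {i, i + 1} by ext; simp; omega, Finset.sum_pair (by omega)]
  simp only [det2_eq hu, dr_sub, h.dr0 hk, h.dr0 hk', h.dr1 hk, h.dr1 hk']
  rw [mc_lo le_rfl, mc_lo le_rfl, mc_hi h.lt (l := i + 1 + 1) (by omega)]
  simp only [dr_smul, dr_rc2, kp]
  push_cast
  rcases hu with e | e <;> rw [e] <;> field_simp <;> push_cast <;> ring

theorem dr_comb {a b c : Z2} {s t : ℤ} (e : s • a + t • c = b) (x : ℝ × ℝ) : dr x b = s * dr x a + t * dr x c := by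
  subst e
  simp [dr]
  ring

theorem sum2 (h : Wd w δ i (i + 2)) (hk : Cst k i (i + 2)) (hk' : Cst k' i (i + 2)) {s t : ℤ}
    (hs : s = 1 ∨ s = -1) (ht : t = 1 ∨ t = -1) (e : s • w i + t • w (i + 2) = w (i + 1)) :
    ∑ l ∈ Finset.Icc i (i + 2), det2 (mc w δ i (i + 2) k l) (mc w δ i (i + 2) k' (l + 1) - mc w δ i (i + 2) k' l) =
      -((kp δ (w i) (w (i + 2)) (k i) (k (i + 2)) : ℝ) * kp δ (w i) (w (i + 2)) (k' i) (k' (i + 2)) /
        (dt (w i) (w (i + 2)) * dot δ (w i) * dot δ (w (i + 2)))) - (s * dt (w i) (w (i + 1)) : ℤ) *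
        ((k (i + 1) - s * k i - t * k (i + 2) : ℤ) * (k' (i + 1) - s * k' i - t * k' (i + 2) : ℤ)) := by
  have hu : Uni (w i) (w (i + 1)) := by simpa using h.un (i + 1) (by omega) (by omega)
  have e1 : dt (w i) (w (i + 1)) = t * dt (w i) (w (i + 2)) := by rw [← e]; simp [dt]; ring
  have hu' : Uni (w i) (w (i + 2)) := by
    rcases hu with a | a <;> rcases ht with rfl | rfl <;> unfold Uni <;> omega
  have ha : (dot δ (w i) : ℝ) ≠ 0 := Int.cast_ne_zero.2 h.ha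
  have hb : (dot δ (w (i + 2)) : ℝ) ≠ 0 := Int.cast_ne_zero.2 h.hb
  have e2 : i + 1 + 1 = i + 2 := by ring
  have p1 : ∀ {k}, Cst k i (i + 2) → dr (mc w δ i (i + 2) k (i + 1)) (w (i + 2)) = t * (k (i + 1) - s * k i) :=
    fun {k} hk => by
      have := dr_comb e (mc w δ i (i + 2) k (i + 1))
      rw [h.dr0 hk, h.dr1 hk] at this
      rcases ht with rfl | rfl <;> push_cast at this ⊢ <;> linarith
  have p2 : ∀ {k}, Cst k i (i + 2) → dr (mc w δ i (i + 2) k (i + 2)) (w i) = s * (k (i + 1) - t * k (i + 2)) :=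
    fun {k} hk => by
      have := dr_comb e (mc w δ i (i + 2) k (i + 1 + 1))
      rw [h.dr1 hk, e2, h.dr0 hk] at this
      rcases hs with rfl | rfl <;> push_cast at this ⊢ <;> linarith
  rw [show Finset.Icc i (i + 2) = {i, i + 1, i + 2} by ext; simp; omega, Finset.sum_insert (by simp),
    Finset.sum_pair (by omega)]
  simp only [det2_eq hu', dr_sub, e2, h.dr0 hk, h.dr0 hk', h.dr1 hk, h.dr1 hk', p1 hk, p1 hk', p2 hk, p2 hk']
  rw [mc_lo le_rfl, mc_lo le_rfl, mc_hi h.lt (l := i + 2 + 1) (by omega), e1]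
  simp only [dr_smul, dr_rc2, kp]
  push_cast
  rcases hu' with z | z <;> rcases hs with rfl | rfl <;> rcases ht with rfl | rfl <;> rw [z] <;> field_simp <;>
    push_cast <;> ring

variable {EN HN : Type} [NormedAddCommGroup EN] [NormedSpace ℝ EN] [FiniteDimensional ℝ EN]
  [TopologicalSpace HN] {IN : ModelWithCorners ℝ EN HN} [IN.Boundaryless]
  {N : Type} [TopologicalSpace N] [ChartedSpace HN N] [IsManifold IN ∞ N] [T2Space N]
  {T : Tb IN N} {θ : N → Circle} {F F' : X T (wd w) → Ext E4}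

variable (T θ δ i j k) in
/-- the form with orders `k` -/
def Fm (F : X T (wd w) → Ext E4) : Prop := WF T w 1 (ang IN θ) (mc w δ i j k) (nc w δ i j k) F

theorem Wd.exists_fm (h : Wd w δ i j) (hθ : Ang T θ δ) (hk : Cst k i j) : ∃ F, Fm (w := w) δ i j k T θ F :=
  exists_WF one_pos (xa_ang hθ 3) (fun l => by rw [dr_sub, h.dr0 hk, h.dr1 hk, sub_self]) _

theorem Fm.cs [CompactSpace N] (f : Fm δ i j k T θ F) (h : Wd w δ i j) (hθ : Ang T θ δ) :
    Cs (𝓡 4) 2 (T.time (wd w) ⁻¹' Icc (i + 1 / 3) (j + 2 / 3)) F := by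
  have := WF.cs_time f (xa_ang hθ 3) (by norm_num) h.isWd (i := i) (j := j + 1)
    (fun l a => ⟨mc_lo a, if_pos a⟩) fun l a => ⟨mc_hi h.lt (by omega), if_neg (by have := h.lt; omega)⟩
  rwa [show ((j + 1 : ℤ) : ℝ) - 1 / 3 = j + 2 / 3 by push_cast; ring] at this

theorem Fm.conn (f : Fm δ i j k T θ F) (h : Wd w δ i j) (hk : Cst k i j) {κ : Type*} [Fintype κ]
    {q : X T (wd w) → Matrix κ κ ℂ} {s : X T (wd w) → Matrix κ Unit ℂ} (hL : TL T (wd w) (wm w k) q s univ) :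
    ∃ b, (⟨q, b⟩ : Ln E4 _ κ).On (𝓡 4) univ ∧ (⟨q, b⟩ : Ln E4 _ κ).F (𝓡 4) = F :=
  let ⟨b, h1, _, h3⟩ := WF.exists_conn f (h.dr0 hk) isOpen_univ hL
  ⟨b, h1, funext fun x => h3 (mem_univ x)⟩

variable [MeasurableSpace E4] [BorelSpace E4] [MeasurableSpace (X T (wd w))] [BorelSpace (X T (wd w))]
  [SecondCountableTopology (X T (wd w))] [CompactSpace N] {o : N → Ext EN} {O : X T (wd w) → Ext E4} {σ : ℤ}

theorem Fm.ip_eq (f : Fm δ i j k T θ F) (f' : Fm δ i j k' T θ F') (h : Wd w δ i j) (hθ : Ang T θ δ)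
    (hO : OX T (wd w) o O) (hσ : σ = 1 ∨ σ = -1) (hτ : Pos Rod53.IT IN T.τ {z | z.2 ≠ 0} ((σ : ℝ) • oT) o) :
    ip (𝓡 4) O F F' = -(σ * (4 * π ^ 2) * ∑ l ∈ Finset.Icc i j,
      det2 (mc w δ i j k l) (mc w δ i j k' (l + 1) - mc w δ i j k' l)) := by
  have hS : ∀ l, l ∉ Finset.Icc i j → mc w δ i j k' (l + 1) = mc w δ i j k' l := fun l a => by
    rcases (by simpa [or_iff_not_imp_left] using a : l < i ∨ j < l) with a | a
    · rw [mc_lo a.le, mc_lo (by omega)]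
    · rw [mc_hi h.lt a, mc_hi h.lt (by omega)]
  have c := (f'.cs h hθ).mono (subset_univ _)
  rcases hσ with rfl | rfl
  · rw [(WF.wc f univ).ip_eq hO (by simpa using hτ) h.isWd isOpen_univ f' c hS]
    push_cast; ring
  · rw [← neg_neg O, ip_neg_ori, (WF.wc f univ).ip_eq hO.neg (pos_neg_left.1 (by simpa using hτ)) h.isWd
      isOpen_univ f' c hS]
    push_cast; ring

/-- one vertex -/
theorem Fm.ip1 (f : Fm δ i (i + 1) k T θ F) (f' : Fm δ i (i + 1) k' T θ F') (h : Wd w δ i (i + 1))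
    (hk : Cst k i (i + 1)) (hk' : Cst k' i (i + 1)) (hθ : Ang T θ δ) (hO : OX T (wd w) o O) (hσ : σ = 1 ∨ σ = -1)
    (hτ : Pos Rod53.IT IN T.τ {z | z.2 ≠ 0} ((σ : ℝ) • oT) o) :
    ip (𝓡 4) O F F' = 4 * π ^ 2 * (kp δ (w i) (w (i + 1)) (k i) (k (i + 1)) *
      kp δ (w i) (w (i + 1)) (k' i) (k' (i + 1)) /
        (σ * dt (w i) (w (i + 1)) * dot δ (w i) * dot δ (w (i + 1)) : ℤ)) := by
  rw [f.ip_eq f' h hθ hO hσ hτ, sum1 h hk hk']
  rcases hσ with rfl | rfl <;> push_cast <;> ring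

/-- two vertices, the middle sphere has square `-1` -/
theorem Fm.ip2 (f : Fm δ i (i + 2) k T θ F) (f' : Fm δ i (i + 2) k' T θ F') (h : Wd w δ i (i + 2))
    (hk : Cst k i (i + 2)) (hk' : Cst k' i (i + 2)) (hθ : Ang T θ δ) (hO : OX T (wd w) o O) (hσ : σ = 1 ∨ σ = -1)
    (hτ : Pos Rod53.IT IN T.τ {z | z.2 ≠ 0} ((σ : ℝ) • oT) o) {s t : ℤ} (hs : s = 1 ∨ s = -1) (ht : t = 1 ∨ t = -1)
    (e : s • w i + t • w (i + 2) = w (i + 1)) (e' : dt (s • w i) (w (i + 1)) = -σ) :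
    ip (𝓡 4) O F F' = 4 * π ^ 2 * (kp δ (w i) (w (i + 2)) (k i) (k (i + 2)) *
      kp δ (w i) (w (i + 2)) (k' i) (k' (i + 2)) /
        (σ * dt (w i) (w (i + 2)) * dot δ (w i) * dot δ (w (i + 2)) : ℤ) -
      (k (i + 1) - s * k i - t * k (i + 2) : ℤ) * (k' (i + 1) - s * k' i - t * k' (i + 2) : ℤ)) := by
  rw [f.ip_eq f' h hθ hO hσ hτ, sum2 h hk hk' hs ht e, show s * dt (w i) (w (i + 1)) = -σ by
    rw [← e']; simp [dt]; ring]
  rcases hσ with rfl | rfl <;> push_cast <;> ring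

omit [MeasurableSpace E4] [BorelSpace E4] [MeasurableSpace (X T (wd w))] [BorelSpace (X T (wd w))] in
/-- one handle for every vertex -/
theorem Wd.hd (h : Wd w δ i j) :
    ∃ n : ℕ, (n : ℤ) ≤ j - i ∧ Hd (𝓡 4) (T.time (wd w) ⁻¹' Iio (i + 1)) univ n := by
  have := Orx52.sigmaCompact (𝓡 4) (X T (wd w))
  have e : (i : ℝ) < j := by exact_mod_cast h.lt
  have k := (rg_of_time (T := T) (v := wd w) isOpen_univ convex_univ).hd h.isWd one_pos (fun _ _ _ => univ_nonempty)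
    h.lt.le (β' := i) (β := i + 1) (γ := j + 1) (lt_add_one _) le_rfl Ioo_subset_Jr (by linarith) (lt_add_one _)
    (subset_univ _) isOpen_univ convex_univ (subset_univ _)
    fun x _ _ e => Ioi_subset_Jr (fun l a => .inl (h.cst.2 l a)) e
  rw [← rg_time, preimage_univ, univ_inter, univ_inter] at k
  refine ⟨_, ?_, k⟩
  have := nv_le (a := w) (i := i) (j := j) (s := Finset.Ioc i j) fun c a b _ => Finset.mem_Ioc.2 ⟨a, b⟩
  rw [Int.card_Ioc] at this
  have := h.lt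
  omega

section fill

variable {EY HY : Type} [NormedAddCommGroup EY] [NormedSpace ℝ EY] [FiniteDimensional ℝ EY] [TopologicalSpace HY]
  {IY : ModelWithCorners ℝ EY HY} [IY.Boundaryless] {Y : Type} [TopologicalSpace Y] [ChartedSpace HY Y]
  [IsManifold IY ∞ Y] {b : Z2}

omit [MeasurableSpace E4] [BorelSpace E4] [MeasurableSpace (X T (wd w))] [BorelSpace (X T (wd w))] in
theorem Wd.hz_in (h : Wd w δ i j) (G : Fl T (w i) b IY Y) (hu : Uni (w i) b) {n : ℕ} (hz : HZ IY n (univ : Set Y)) :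
    HZ (𝓡 4) n (T.time (wd w) ⁻¹' Iio (i + 1)) := by
  have e : Iio ((i : ℝ) + 1) ⊆ Jr (wd w) (w i) := Iio_subset_Jr fun l a => .inl (h.cst.1 l a)
  rw [← G.image_cyf hu e]
  exact (hz_pd (cp (v := wd w) G hu) (isOpen_univ.prod isOpen_Iio) fun q hq => Or.inr (e hq.2)).2
    (hz.prod_convex isOpen_univ isOpen_Iio (convex_Iio _))

omit [MeasurableSpace E4] [BorelSpace E4] [MeasurableSpace (X T (wd w))] [BorelSpace (X T (wd w))] in
/-- `b₁ = 0` -/
theorem Wd.hz1 (h : Wd w δ i j) (G : Fl T (w i) b IY Y) (hu : Uni (w i) b) (hz : HZ IY 1 (univ : Set Y)) :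
    HZ (𝓡 4) 1 (univ : Set (X T (wd w))) :=
  have := Orx52.sigmaCompact (𝓡 4) (X T (wd w))
  let ⟨_, _, k⟩ := h.hd (T := T)
  bd_zero.1 (k.bd (by omega) (bd_zero.2 (h.hz_in G hu hz)))

omit [MeasurableSpace E4] [BorelSpace E4] [MeasurableSpace (X T (wd w))] [BorelSpace (X T (wd w))] in
theorem Wd.bd2 (h : Wd w δ i j) (G : Fl T (w i) b IY Y) (hu : Uni (w i) b) (hz : HZ IY 2 (univ : Set Y)) {n : ℕ}
    (hn : j - i ≤ n) : Bd (𝓡 4) 2 (univ : Set (X T (wd w))) n :=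
  have := Orx52.sigmaCompact (𝓡 4) (X T (wd w))
  let ⟨_, a, k⟩ := h.hd (T := T)
  (k.bd2 (bd_zero.2 (h.hz_in G hu hz))).mono (by omega)

/-- the lattice of a one-vertex word -/
theorem Wd.lat1 (h : Wd w δ i (i + 1)) (G : Fl T (w i) b IY Y) (hu : Uni (w i) b) (hz : HZ IY 2 (univ : Set Y))
    (hθ : Ang T θ δ) (hO : OX T (wd w) o O) (hσ : σ = 1 ∨ σ = -1)
    (hτ : Pos Rod53.IT IN T.τ {z | z.2 ≠ 0} ((σ : ℝ) • oT) o) : ∃ (e : Fin 1 → X T (wd w) → Ext E4) (r : ℝ), 0 < r ∧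
      Lat (𝓡 4) O univ univ e (Matrix.diagonal
        ![r / (σ * dt (w i) (w (i + 1)) * dot δ (w i) * dot δ (w (i + 1)) : ℤ)]) := by
  obtain ⟨F, f⟩ := h.exists_fm hθ (cst_s2 i 0 1)
  have ha : (dot δ (w i) : ℝ) ≠ 0 := Int.cast_ne_zero.2 h.ha
  have hu' : Uni (w i) (w (i + 1)) := by simpa using h.un (i + 1) (by omega) le_rfl
  have hs : σ * dt (w i) (w (i + 1)) * dot δ (w i) * dot δ (w (i + 1)) ≠ 0 :=
    mul_ne_zero (mul_ne_zero (mul_ne_zero (by omega) (by unfold Uni at hu'; omega)) h.ha) h.hb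
  refine ⟨![F], 4 * π ^ 2 * dot δ (w i) ^ 2, by positivity, hO.ori, isOpen_univ, Subset.rfl,
    h.bd2 G hu hz (by simp), fun a => ?_, fun a c => ?_, ?_⟩
  · fin_cases a
    exact (f.cs h hθ).mono (subset_univ _)
  · fin_cases a; fin_cases c
    simp only [Fin.zero_eta, Matrix.cons_val_zero, Matrix.diagonal_apply_eq]
    rw [f.ip1 f h (cst_s2 i 0 1) (cst_s2 i 0 1) hθ hO hσ hτ]
    simp [kp]
    ring
  · rw [Matrix.det_diagonal, Fin.prod_univ_one]
    exact div_ne_zero (by positivity) (Int.cast_ne_zero.2 hs)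

/-- the lattice of a two-vertex word -/
theorem Wd.lat2 (h : Wd w δ i (i + 2)) (G : Fl T (w i) b IY Y) (hu : Uni (w i) b) (hz : HZ IY 2 (univ : Set Y))
    (hθ : Ang T θ δ) (hO : OX T (wd w) o O) (hσ : σ = 1 ∨ σ = -1)
    (hτ : Pos Rod53.IT IN T.τ {z | z.2 ≠ 0} ((σ : ℝ) • oT) o) {s t : ℤ} (hs : s = 1 ∨ s = -1) (ht : t = 1 ∨ t = -1)
    (e : s • w i + t • w (i + 2) = w (i + 1)) (e' : dt (s • w i) (w (i + 1)) = -σ) :
    ∃ (e : Fin 2 → X T (wd w) → Ext E4) (r : ℝ), 0 < r ∧ Lat (𝓡 4) O univ univ e (Matrix.diagonal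
      ![r / (σ * dt (w i) (w (i + 2)) * dot δ (w i) * dot δ (w (i + 2)) : ℤ), -(4 * π ^ 2)]) := by
  obtain ⟨F, f⟩ := h.exists_fm hθ (cst_s3 i 0 t 1)
  obtain ⟨F', f'⟩ := h.exists_fm hθ (cst_s3 i 0 1 0)
  have ha : (dot δ (w i) : ℝ) ≠ 0 := Int.cast_ne_zero.2 h.ha
  have e1 : s * t * dt (w i) (w (i + 2)) = -σ := by rw [← e', ← e]; simp [dt]; ring
  have hd : σ * dt (w i) (w (i + 2)) * dot δ (w i) * dot δ (w (i + 2)) ≠ 0 :=
    mul_ne_zero (mul_ne_zero (mul_ne_zero (by omega) (fun z => by rw [z] at e1; omega)) h.ha) h.hb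
  refine ⟨![F, F'], 4 * π ^ 2 * dot δ (w i) ^ 2, by positivity, hO.ori, isOpen_univ, Subset.rfl,
    h.bd2 G hu hz (by simp), fun a => ?_, fun a c => ?_, ?_⟩
  · fin_cases a
    exacts [(f.cs h hθ).mono (subset_univ _), (f'.cs h hθ).mono (subset_univ _)]
  · fin_cases a <;> fin_cases c
    · refine (f.ip2 f h (cst_s3 i 0 t 1) (cst_s3 i 0 t 1) hθ hO hσ hτ hs ht e e').trans ?_
      simp [kp]
      ring
    · refine (f.ip2 f' h (cst_s3 i 0 t 1) (cst_s3 i 0 1 0) hθ hO hσ hτ hs ht e e').trans ?_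
      simp [kp]
    · refine (f'.ip2 f h (cst_s3 i 0 1 0) (cst_s3 i 0 t 1) hθ hO hσ hτ hs ht e e').trans ?_
      simp [kp]
    · refine (f'.ip2 f' h (cst_s3 i 0 1 0) (cst_s3 i 0 1 0) hθ hO hσ hτ hs ht e e').trans ?_
      simp [kp]
  · rw [Matrix.det_diagonal, Fin.prod_univ_two]
    exact mul_ne_zero (div_ne_zero (by positivity) (Int.cast_ne_zero.2 hd)) (by simp [Real.pi_ne_zero])

end fill

end Crest.Agent.X212.Deg17
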