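import Crest.Agent.X212.Deg17.Rod
import Crest.Agent.X212.Bor5.Ex

/-!
# X212 / Deg17 (helper17): degrees and signs of the maps of rod words

* `Od φ d m` : the determinant line of `d` pulls back to a toric line with orders `m`;
* `dg1`, `tn1`, `tp1`, `dg2` for any positive diffeomorphism from a rod manifold;  `deg : DegStmt`, `deg2 : Deg2Stmt`.
-/

set_option autoImplicit false
set_option linter.unusedSectionVars false

open Set Filter Topology Function Module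
open scoped ContDiff Manifold Real
open Crest.Agent.R208 Crest.Agent.R208.FI
open Crest.Agent.R208.F hiding wd
open Crest.Agent.X212.Int54 (Ori SameOn)
open Crest.Agent.X212.Line51 hiding tp Uni
open Crest.Agent.X212.Orx52 Crest.Agent.X212.Rod53 Crest.Agent.X212.Dr59 Crest.Agent.X212.Bor5.T
open Crest.Agent.X212.Lab56 (Cls Dat Eqv mk_eq_iff)
open Crest.Agent.X212.Rw22 (dgk)

noncomputable section

namespace Crest.Agent.X212.Deg17

theorem sign_div {r : ℝ} (hr : 0 < r) (s : ℤ) : (SignType.sign (r / s) : ℝ) = (Int.sign s : ℤ) := by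
  rcases lt_trichotomy s 0 with h | rfl | h
  · rw [sign_neg (div_neg_of_pos_of_neg hr (by exact_mod_cast h)), Int.sign_eq_neg_one_of_neg h]; simp
  · simp
  · rw [sign_pos (div_pos hr (by exact_mod_cast h)), Int.sign_eq_one_of_pos h]; simp

variable {τ : Tub} {W : W4} {v : ℝ → Z2} {m : ℝ → ℤ} {d : W.L}

/-- the determinant line of `d` pulls back to a toric line with orders `m` -/
def Od (φ : τ.X v → W.M) (d : W.L) (m : ℝ → ℤ) : Prop :=
  ∃ D : Dat W.X.P.I (univ : Set W.M), (Quot.mk _ D : W.L) = d ∧ ∃ s, TL τ.T v m (fun x => D.d.det (φ x)) s univ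

theorem od_of_lc (hv : Loc v) {φ : τ.X v → W.M} {d₀ : Cls (𝓡 4) (univ : Set (τ.X v))} (p : Pb φ univ d d₀)
    {n N : ℕ} {R : Lab56.Ref τ.T (Fin n) (Fin N)} (l : Lc R d₀ m) : Od φ d m := by
  obtain ⟨D, rfl⟩ := Quot.exists_rep d
  obtain ⟨hf, e⟩ := p
  obtain ⟨D₀, rfl, u, -, t⟩ := l
  have := τ.T.secondCountable hv
  have := Orx52.sigmaCompact (𝓡 4) (τ.X v)
  have k := D.ok.pull hf (mapsTo_univ univ _)
  have e' : (Quot.mk _ D₀ : Cls (𝓡 4) univ) = Quot.mk _ ⟨_, _, _, k⟩ := e.symm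
  obtain ⟨u, i⟩ := (mk_eq_iff isOpen_univ).1 e'
  have t' := t.trans isOpen_univ (i.dm D₀.ok k)
  exact ⟨D, rfl, _, t'⟩

variable {w : ℤ → Z2} {δ : Z2} {i j : ℤ} {k : ℤ → ℤ} {ϑ : τ.N.M → Circle} {A : Q3}
  {φ : PartialDiffeomorph (𝓡 4) W.X.P.I (τ.X (wd w)) W.M ∞} {hv : Loc (wd w)}

/-- a positive diffeomorphism -/
structure Gp (hv : Loc v) (φ : PartialDiffeomorph (𝓡 4) W.X.P.I (τ.X v) W.M ∞) : Prop where
  src : φ.source = univ
  tgt : φ.target = univ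
  pos : Pos (𝓡 4) W.X.P.I φ univ (oX hv τ.ori) W.o

theorem Gp.img (g : Gp hv φ) : φ '' univ = univ := by
  rw [← g.src, φ.image_source_eq_target, g.tgt]

theorem Gp.cur (g : Gp hv φ) (h : Wd w δ i j) (hk : Cst k i j) (o : Od φ d (wm w k)) {F : τ.X (wd w) → Ext E4}
    (f : Fm δ i j k τ.T ϑ F) : Cur d (psh φ F) := by
  obtain ⟨D, e, s, t⟩ := o
  obtain ⟨b, h1, h2⟩ := f.conn h hk t
  have hm : Mp W.X.P.I (𝓡 4) univ univ φ.symm := ⟨fun x _ => φ.contMDiffOn_invFun.contMDiffAt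
    (φ.open_target.mem_nhds (g.tgt ▸ mem_univ x)), mapsTo_univ _ _⟩
  have e1 : Ln.pull W.X.P.I (𝓡 4) φ.symm ⟨fun x => D.d.det (φ x), b⟩ = ⟨D.d.det, pm W.X.P.I (𝓡 4) φ.symm b⟩ := by
    rw [Ln.pull]
    congr 1
    exact funext fun y => congrArg D.d.det (φ.right_inv (g.tgt ▸ mem_univ y))
  refine ⟨D, e, _, e1 ▸ h1.pull hm, funext fun y => ?_⟩
  rw [← e1, h1.F_pull isOpen_univ isOpen_univ hm (mem_univ y), h2, psh, g.tgt, indicator_univ]

section ms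

variable [MeasurableSpace E4] [BorelSpace E4] [MeasurableSpace (τ.X (wd w))] [BorelSpace (τ.X (wd w))]
  [SecondCountableTopology (τ.X (wd w))]

theorem Gp.lat (g : Gp hv φ) {n : Type} [Fintype n] [DecidableEq n] {e : n → τ.X (wd w) → Ext E4}
    {G : Matrix n n ℝ} (h : Lat (𝓡 4) (oX hv τ.ori) univ univ e G) :
    Lat W.X.P.I W.o univ univ (fun a => psh φ (e a)) G :=
  g.img ▸ h.push φ g.src.ge W.ori (same_symm g.pos)

theorem Gp.sq (g : Gp hv φ) {F : τ.X (wd w) → Ext E4} (h : Cs (𝓡 4) 2 univ F) :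
    Cs W.X.P.I 2 univ (psh φ F) ∧ W.sq (psh φ F) = ip (𝓡 4) (oX hv τ.ori) F F :=
  ⟨g.img ▸ h.psh φ g.src.ge, (h.ip_psh φ g.src.ge W.ori (oX_spec hv τ.ori).ori (same_symm g.pos) _).trans
    (h.ip_congr fun y _ => pm_psh φ (g.src ▸ mem_univ y) _)⟩

end ms

variable {S : Scene} (θ : Th S) {p q : S.ι} {c : S.κ p q} {d : (S.cob c).L}
  {φ : PartialDiffeomorph (𝓡 4) (S.cob c).X.P.I (τ.X (wd w)) (S.cob c).M ∞}

/-- one vertex -/
theorem Gp.one (g : Gp (W := (S.cob c).toW4) hv φ) (h : Wd w δ i (i + 1)) (hϑ : Ang τ.T ϑ δ)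
    (f : Fo τ A.toO3 (w i)) {s : ℤ} (hs : s = τ.σ * dt (w i) (w (i + 1)) * dot δ (w i) * dot δ (w (i + 1))) :
    (Cst k i (i + 1) → Od (W := (S.cob c).toW4) φ d (wm w k) →
      θ.dg c d = dgk s (kp δ (w i) (w (i + 1)) (k i) (k (i + 1)))) ∧
    (s < 0 → ∀ t, (S.cob c).In d t → ∃ M, ∀ x, M ≤ x → ∀ y ∈ (θ.H p).gr t x, θ.F c d y = 0 → y = 0) ∧
    (0 < s → ∃ M, ∀ t x, M ≤ x → ∀ y ∈ (θ.H p).gr t x, θ.F c d y = 0) := by
  have := τ.T.secondCountable hv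
  borelize E4 (τ.X (wd w))
  obtain ⟨e, r, hr, l⟩ := h.lat1 f.F f.hu A.h2 hϑ (oX_spec hv τ.ori) τ.hσ τ.pos
  rw [← hs] at l
  have l := g.lat l
  refine ⟨fun hk o => ?_, fun a t => θ.tn c d t _ _ _ l fun b => ?_, fun a => θ.tp c d _ (l.cs 0) ?_⟩
  · obtain ⟨F, u⟩ := h.exists_fm hϑ hk
    obtain ⟨a, b⟩ := g.sq ((u.cs h hϑ).mono (subset_univ _))
    refine θ.deg c d _ _ _ _ _ l a (g.cur h hk o u) ?_
    rw [b, u.ip1 u h hk hk hϑ (oX_spec hv τ.ori) τ.hσ τ.pos, ← hs, Fin.sum_univ_one, Matrix.cons_val_zero,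
      sign_div hr, dgk, mul_div_cancel_left₀ _ (by positivity)]
    push_cast
    simp only [Fintype.card_fin]
    ring
  · fin_cases b
    exact div_neg_of_pos_of_neg hr (by exact_mod_cast a)
  · exact (div_pos hr (by exact_mod_cast a)).trans_eq (l.gram 0 0).symm

/-- two vertices -/
theorem Gp.two (g : Gp (W := (S.cob c).toW4) hv φ) (h : Wd w δ i (i + 2)) (hϑ : Ang τ.T ϑ δ)
    (f : Fo τ A.toO3 (w i)) {s t : ℤ} (hs : s = 1 ∨ s = -1) (ht : t = 1 ∨ t = -1)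
    (e : s • w i + t • w (i + 2) = w (i + 1)) (e' : dt (s • w i) (w (i + 1)) = -τ.σ) (hk : Cst k i (i + 2))
    (o : Od (W := (S.cob c).toW4) φ d (wm w k)) :
    θ.dg c d = dgk (τ.σ * dt (w i) (w (i + 2)) * dot δ (w i) * dot δ (w (i + 2)))
      (kp δ (w i) (w (i + 2)) (k i) (k (i + 2))) + (1 - (k (i + 1) - s * k i - t * k (i + 2) : ℤ) ^ 2) / 4 := by
  have := τ.T.secondCountable hv
  borelize E4 (τ.X (wd w))
  obtain ⟨_, r, hr, l⟩ := h.lat2 f.F f.hu A.h2 hϑ (oX_spec hv τ.ori) τ.hσ τ.pos hs ht e e'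
  obtain ⟨F, u⟩ := h.exists_fm hϑ hk
  obtain ⟨a, b⟩ := g.sq ((u.cs h hϑ).mono (subset_univ _))
  refine θ.deg c d _ _ _ _ _ (g.lat l) a (g.cur h hk o u) ?_
  rw [b, u.ip2 u h hk hk hϑ (oX_spec hv τ.ori) τ.hσ τ.pos hs ht e e', Fin.sum_univ_two, Matrix.cons_val_zero,
    sign_div hr, dgk, mul_div_cancel_left₀ _ (by positivity), Matrix.cons_val_one, Matrix.cons_val_zero,
    sign_neg (neg_neg_of_pos (by positivity))]
  push_cast
  simp only [Fintype.card_fin, SignType.coe_one]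
  ring

theorem w1_eq {α : Type} (a b : α) : w1 a b = s3 (-1) a b b := funext fun n => by
  rw [w1, s3, ite_self]
  exact if_congr (by omega) rfl rfl

theorem w2_eq {α : Type} (a b c : α) : w2 a b c = s3 (-1) a b c := funext fun n => by
  rw [w2, s3]
  exact if_congr (by omega) rfl rfl

theorem gp_rt {A B : Q3} {a b : Z2} {C : Cob A B} {hv : Loc v} {f : Fo τ A.toO3 a} {g : Fo τ B.toO3 b} {x y : ℝ}
    (r : Rt C hv f g x y) : Gp (W := C.toW4) hv r.K.φ := ⟨r.K.src, r.K.tgt, r.pos⟩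

/-- **R-DEG** -/
theorem deg : DegStmt := by
  intro S θ τ I V v X ϑ δ n N R hG hσ h0 a b h d m m' ⟨d₀, p, l⟩
  have k := (gp_rt (X.r1 h)).one θ (k := w1 m m') (d := d) (i := -1) (s := Rw22.sq δ (v a) (v b))
    (w1_eq (v a) (v b) ▸ wd1 h.2.2 (h0 a h.1) (h0 b h.2.1) _) hG.ang (X.f a h.1) (by rw [hσ, neg_one_mul]; rfl)
  exact ⟨k.1 (w1_eq m m' ▸ cst_s2 _ _ _) (od_of_lc (X.h1 h).loc p l), k.2⟩

/-- **R-DEG2** -/
theorem deg2 : Deg2Stmt := by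
  intro S θ τ I V v X ϑ δ n N R hG hσ h0 a b c h k l σ ρ e d d' ma mb mc t he hm ⟨d₀, p, u⟩ u'
  have z := (gp_rt (X.r2 h k)).two θ (k := w2 ma mb mc) (d := d) (i := -1) (s := σ) (t := ρ)
    (w2_eq (v a) (v b) (v c) ▸ wd2 h.2.2 k.2.2 (h0 a h.1) (h0 c k.2.1) _) hG.ang (X.f a h.1) t.1 t.2.1
    (by simpa [w2] using t.2.2.1) (by rw [hσ]; exact t.2.2.2) (w2_eq ma mb mc ▸ cst_s3 _ _ _ _) (od_of_lc (X.h2 h k).loc p u)
  have y : (w2 ma mb mc (-1 + 1) - σ * w2 ma mb mc (-1) - ρ * w2 ma mb mc (-1 + 2) : ℤ) = e := by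
    simp [w2]
    omega
  rw [y, hσ, neg_one_mul, show (1 - (e : ℚ) ^ 2) / 4 = 0 by rcases he with rfl | rfl <;> simp, add_zero] at z
  exact z.trans (deg S θ τ V v X ϑ δ R hG hσ h0 l d' ma mc u').1.symm

end Crest.Agent.X212.Deg17
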